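import Vale.Agent.P231.S3B4d.Small
import Vale.Agent.P231.S3B4.Cls
import Vale.Agent.P231.S3Y.FamStd

/-!
# P231, stage 3: the number of the family over the ball bundle
-/

set_option maxSynthPendingDepth 3
set_option linter.unusedSectionVars false
set_option linter.unusedVariables false

open Bundle Manifold Set Filter Module MeasureTheory Metric
open scoped ContDiff Manifold Topology ENNReal Real

namespace Vale.Agent.P231.S3HQ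

noncomputable section

open Vale.Agent.P234 Vale.Agent.P231 Vale.Agent.P231.Fm Vale.Agent.P231.W Vale.Agent.P231.WR
open Vale.Agent.P231.S2N Vale.Agent.P231.S3S Vale.Agent.P231.S2II
open Vale.Agent.P231.TW (JJ)
open Vale.Agent.P231.S3L (dLL LL)
open Vale.Agent.P231.S3Y (cT BT dTY PcS PsS)
open Vale.Agent.P231.S3B4
open Vale.Agent.P231.S3B4c (Vec cmbE)
open Vale.Agent.P231.S3B4d (cm3 small_main)
open Vale.Agent.P231.S3B6 (OG cp opn_OG fa_cp)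
open Vale.Agent.P231.S3B1 (GY dGY)
open Vale.Agent.P231.Fm.Form (IsDeg)

variable {E : Type*} [NormedAddCommGroup E] [NormedSpace ℝ E] [FiniteDimensional ℝ E]
  {M : Type*} [MetricSpace M] [ChartedSpace E M] [IsManifold 𝓘(ℝ, E) ∞ M]
  [RiemannianBundle (fun x : M => TangentSpace 𝓘(ℝ, E) x)]
  [IsContMDiffRiemannianBundle 𝓘(ℝ, E) ∞ E (fun x : M => TangentSpace 𝓘(ℝ, E) x)]
  {e : ∀ x : M, TangentSpace 𝓘(ℝ, E) x → M} {ι : Type} [Fintype ι] [DecidableEq ι]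
  {D : ℝ} [CompactSpace M] [ConnectedSpace M] [IsRiemannianManifold 𝓘(ℝ, E) M]
  {X δ : ι → UT E M → E} {ε : ℝ}

/-- **the number of the family over the ball bundle** -/
theorem small_val7 (F : Facts e) (hD : 0 < D) (hB : InjGE e D) (hdiam : ∀ p q : M, dist p q ≤ D)
    (hl : ∀ x y : M, dist x y = D → finrank ℝ (H775.Pl e D x y) = 2 * 3 + 2)
    (h : S2N.Fam F hD hB hdiam 7 X δ ε) (hN : 2 ≤ finrank ℝ E) {ε₁ ρc : ℝ}
    (hρc : 0 < ρc) (hε₁ : 0 < ε₁) :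
    ∃ r, 0 < r ∧ r ≤ ρc ∧ r ≤ ε₁ ∧ ∀ s, 0 < s → s < r → ∃ m₀, 0 < m₀ ∧ m₀ < 4 * D ∧
      ∃ S₀ : NNReal, ∀ (m : ℝ) (S : NNReal), m₀ ≤ m → S₀ ≤ S →
      ∀ {C : Xi F D X δ ε → M} {d : ℝ} {J : ℕ} {a₀ : Fin J → ℂ} {OT : Set (BT F D X δ ε ε₁)}
        (hT : FA ((dTY F D X δ ε).sub (BT F D X δ ε ε₁)) (dM E M) S (ENNReal.ofReal m) d J OT
          (fun p => cT F hD hB hdiam X δ ε C (PcS F hD hB hdiam X δ ε) (PsS F hD hB hdiam X δ ε)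
            ρc p.1) fun _ => a₀)
        (hOT : ∀ q : BT F D X δ ε ε₁, s < ‖q.1.w‖ → q ∈ OT) (hcov : ∃ j, d ≤ ‖a₀ j‖)
        (z0 : LL (dM E M) S (ENNReal.ofReal m) d J)
        {p : M}
        {Pi : TangentSpace 𝓘(ℝ, E) p → TangentSpace 𝓘(ℝ, E) p →L[ℝ] TangentSpace 𝓘(ℝ, E) p}
        {o : TangentSpace 𝓘(ℝ, E) p → Fm.Lam (TangentSpace 𝓘(ℝ, E) p)}
        {ρ : TangentSpace 𝓘(ℝ, E) p → ℝ} {r₀ : ℝ}
        (hJ : FE.LineP e D p 3 Pi o) (hρ : WE.Rho e D p ρ r₀) (a : ℝ)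
        (hwn : (FE.FF F hD hB hdiam hl hJ hρ a) ^ (2 + 1) = 0)
        (hw8 : Form.IsDeg 8 (FE.FF F hD hB hdiam hl hJ hρ a))
        {ℓ : Form (dLL (dM E M) S (ENNReal.ofReal m) d J)}
        (hℓ : ℓ.d = t2L S (ENNReal.ofReal m) d J (FE.FF F hD hB hdiam hl hJ hρ a))
        (hℓd : Form.IsDeg 28 ℓ)
        {Z : Type} [NormedAddCommGroup Z] [NormedSpace ℝ Z] [FiniteDimensional ℝ Z]
        [MeasurableSpace Z] [BorelSpace Z] {G₁ : Z → UT E M}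
        {f : Fin 7 → Z → EuclideanSpace ℝ ι}
        (hV : Vec F D X δ ε G₁ f) (ho : ∀ x, Orthonormal ℝ fun i => f i x) {K : Set Z}
        (hK : IsCompact K) {v₀ : UT E M} (hout : ∀ x ∉ K, G₁ x = v₀)
        (hZ : finrank ℝ Z = 8) (b : Basis (Fin 29) ℝ (Z × (Eul 7 × (Eul 7 × Eul 7))))
        (bZ : Basis (Fin 8) ℝ Z)
        {U O B : Set (Z × (Eul 7 × (Eul 7 × Eul 7)))} {χ : Z × (Eul 7 × (Eul 7 × Eul 7)) → ℝ}
        {κ : Z × (Eul 7 × (Eul 7 × Eul 7)) → BT F D X δ ε ε₁}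
        (h1 : Plt U O B ((dTY F D X δ ε).sub (BT F D X δ ε ε₁)) OT κ) (hχ : Cut U O B χ)
        (hκv : ∀ p : Z × (Eul 7 × (Eul 7 × Eul 7)), ‖p.2‖ < r → (κ p).1.v = G₁ p.1)
        (hκw : ∀ p : Z × (Eul 7 × (Eul 7 × Eul 7)), ‖p.2‖ < r → (κ p).1.w = cm3 f p)
        (hU : ∀ p : Z × (Eul 7 × (Eul 7 × Eul 7)), ‖p.2‖ < r → p ∈ U)
        (hO : ∀ p : Z × (Eul 7 × (Eul 7 × Eul 7)), s < ‖p.2‖ → ‖p.2‖ < r → p ∈ O)
        (hBK : ∀ p : Z × (Eul 7 × (Eul 7 × Eul 7)), ‖p.2‖ < r → p ∈ B → p.1 ∈ K)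
        (hcut : ∀ p ∈ U, p ∈ B → p ∉ O → ‖p.2‖ < r),
        |Pn b χ h1 (hT.T (FE.FF F hD hB hdiam hl hJ hρ a)) (hT.L z0 ℓ)| =
          3 * FE.kap 3 a ^ 3 *
            |JJ bZ (fun x => (FE.FF F hD hB hdiam hl hJ hρ a).val (fun x => foot (G₁ x)) x)| := by
  obtain ⟨r, hr0, hr1, hr2, H⟩ := small_main (ρ := ρc) (ε₁ := ε₁) hl h (by norm_num) hρc hε₁
  refine ⟨r, hr0, hr1, hr2, fun s hs hsr => ?_⟩
  obtain ⟨m₀, hm0, hm1, S₀, H1⟩ := H s hs hsr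
  refine ⟨m₀, hm0, hm1, max S₀ (S3B1.Sp 8 (D / 2)), ?_⟩
  intro m S hm hS C d J a₀ OT hT hOT hcov z0 p Pi o ρ r₀ hJ hρ a hwn hw8 ℓ hℓ hℓd Z _ _ _ _ _ G₁ f
    hV ho K hK v₀ hout hZ b bZ U O B χ κ h1 hχ hκv hκw hU hO hBK hcut
  have hSp : S3B1.Sp 8 (D / 2) ≤ S := (le_max_right _ _).trans hS
  have ha : ((dGY e D).on (OG F m)).Map (Dif.lin (Fin J → ℂ)) fun _ => a₀ :=
    fun {E} _ _ _ {u x} hu => Sm.of_contDiff contDiff_const x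
  have hG : FA (dGY e D) (dM E M) S (ENNReal.ofReal m) d J (OG F m) (cp F hB) fun _ => a₀ :=
    fa_cp F hD hB hdiam hSp ha fun _ _ => hcov
  have hbx := bx_kG hl h hV ho hK hout hZ
  have hopen : IsOpen (kG hl h G₁ f ⁻¹' OG F m) :=
    S3B6.isOpen_preimage_of_opn hbx.map (opn_OG F hB m)
  have h2 : Plt univ (kG hl h G₁ f ⁻¹' OG F m) (KG K) (dGY e D) (OG F m) (kG hl h G₁ f) :=
    plt_kG hl h hV ho hK hout hZ isOpen_univ hopen (subset_univ _) (fun z hz => hz)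
      (isCompact_KG hK).isClosed Subset.rfl
  obtain ⟨χ', hχ'⟩ := exists_cut_cpt (U := (univ : Set (Z × (Eul 7 × (Eul 7 × Eul 7)))))
    (O := kG hl h G₁ f ⁻¹' OG F m) (B := KG K) isOpen_univ (isCompact_KG hK) (subset_univ _)
    fun x _ hxB _ => hxB
  have hwd : (FE.FF F hD hB hdiam hl hJ hρ a).d = 0 := FE.FF_d F hD hB hdiam hl hJ hρ a
  have hwe : (FE.FF F hD hB hdiam hl hJ hρ a).sg = FE.FF F hD hB hdiam hl hJ hρ a :=
    FE.FF_sg F hD hB hdiam hl hJ hρ a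
  obtain ⟨c, hc, e1⟩ := H1 m S hm ((le_max_left _ _).trans hS) hT hOT hG z0 hwd hwe hwn hw8 hℓ
    hℓd hV ho hK hout (rfl : 29 = 28 + 1) b h1 hχ hκv hκw hU hO hBK hcut (κ' := kG hl h G₁ f)
    (fun _ => rfl) h2 hχ' fun p hp => hp.1
  have e2 := Pn_kG hl hJ hρ a h hN hV ho hK hout hZ bZ (isCompact_KG hK).isClosed Subset.rfl
    (fun z _ _ => mem_univ z) h2 hG z0 hwn hw8 hℓ hℓd hχ' (b := b)
  have hc' : |c| = 1 := by
    rw [← sq_eq_sq₀ (abs_nonneg _) zero_le_one, sq_abs, hc, one_pow]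
  rw [e1, abs_mul, hc', one_mul, e2]

end

end Vale.Agent.P231.S3HQ
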